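import Mathlib

open MeasureTheory

namespace Vale.Agent.Common.EfronStein

section EfronStein

variable {ι : Type*} {X : ι → Type*} [∀ i, MeasurableSpace (X i)] [DecidableEq ι]

theorem measurable_piecewise_uncurry (S : Finset ι) :
    Measurable (fun p : (∀ i, X i) × (∀ i, X i) => S.piecewise p.1 p.2) := by
  refine measurable_pi_iff.2 fun i => ?_
  by_cases hi : i ∈ S
  · have : (fun p : (∀ i, X i) × (∀ i, X i) => S.piecewise p.1 p.2 i) = fun p => p.1 i := by
      funext p; simp [hi]
    rw [this]; fun_prop
  · have : (fun p : (∀ i, X i) × (∀ i, X i) => S.piecewise p.1 p.2 i) = fun p => p.2 i := by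
      funext p; simp [hi]
    rw [this]; fun_prop

/-- Mixing two independent product-distributed points along a finset of coordinates. -/
theorem measurePreserving_piecewise
    (P : (i : ι) → Measure (X i)) [∀ i, IsProbabilityMeasure (P i)] (S : Finset ι) :
    MeasurePreserving (fun p : (∀ i, X i) × (∀ i, X i) => S.piecewise p.1 p.2)
      ((Measure.infinitePi P).prod (Measure.infinitePi P)) (Measure.infinitePi P) := by
  refine ⟨measurable_piecewise_uncurry S, Measure.eq_infinitePi P fun s t ht => ?_⟩
  have hset : MeasurableSet ((s : Set ι).pi t) := .pi s.countable_toSet fun i _ => ht i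
  rw [Measure.map_apply (measurable_piecewise_uncurry S) hset]
  have hpre : (fun p : (∀ i, X i) × (∀ i, X i) => S.piecewise p.1 p.2) ⁻¹' ((s : Set ι).pi t)
      = (((s ∩ S : Finset ι) : Set ι).pi t) ×ˢ (((s \ S : Finset ι) : Set ι).pi t) := by
    ext p
    simp only [Set.mem_preimage, Set.mem_pi, Finset.mem_coe, Set.mem_prod, Finset.mem_inter,
      Finset.mem_sdiff]
    constructor
    · intro h
      refine ⟨fun i hi => ?_, fun i hi => ?_⟩
      · have := h i hi.1
        simpa [hi.2] using this
      · have := h i hi.1
        simpa [hi.2] using this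
    · rintro ⟨h1, h2⟩ i hi
      by_cases hiS : i ∈ S
      · simpa [hiS] using h1 i ⟨hi, hiS⟩
      · simpa [hiS] using h2 i ⟨hi, hiS⟩
  rw [hpre, Measure.prod_prod, Measure.infinitePi_pi _ (fun i _ => ht i),
    Measure.infinitePi_pi _ (fun i _ => ht i)]
  rw [← Finset.prod_union (Finset.disjoint_left.2 (by simp +contextual))]
  congr 1
  ext i; simp only [Finset.mem_union, Finset.mem_inter, Finset.mem_sdiff]; tauto

/-- Integrate out all coordinates outside `S`. -/
noncomputable def condOn (P : (i : ι) → Measure (X i)) (S : Finset ι)
    (f : (∀ i, X i) → ℝ) (x : ∀ i, X i) : ℝ :=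
  ∫ y, f (S.piecewise x y) ∂(Measure.infinitePi P)

variable (P : (i : ι) → Measure (X i)) [∀ i, IsProbabilityMeasure (P i)]

theorem measurable_condOn (S : Finset ι) {f : (∀ i, X i) → ℝ} (hf : Measurable f) :
    Measurable (condOn P S f) := by
  have h : StronglyMeasurable (fun p : (∀ i, X i) × (∀ i, X i) => f (S.piecewise p.1 p.2)) :=
    (hf.comp (measurable_piecewise_uncurry S)).stronglyMeasurable
  exact h.integral_prod_right.measurable

theorem abs_condOn_le (S : Finset ι) {f : (∀ i, X i) → ℝ} {C : ℝ} (hC : ∀ x, |f x| ≤ C)
    (x : ∀ i, X i) : |condOn P S f x| ≤ C := by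
  have h := norm_integral_le_of_norm_le_const (μ := Measure.infinitePi P)
    (f := fun y => f (S.piecewise x y)) (C := C) (Filter.Eventually.of_forall fun y => hC _)
  simpa [condOn] using h

omit [∀ i, IsProbabilityMeasure (P i)] in
theorem dependsOn_condOn (S : Finset ι) (f : (∀ i, X i) → ℝ) :
    DependsOn (condOn P S f) (S : Set ι) := by
  intro x y hxy
  unfold condOn
  congr 1
  funext z
  congr 1
  funext i
  by_cases hi : i ∈ S
  · simp [hi, hxy i (by simpa using hi)]
  · simp [hi]

/-- `condOn` of a function of the coordinates in `S` is the function. -/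
theorem condOn_of_dependsOn (S : Finset ι) {f : (∀ i, X i) → ℝ} (hf : DependsOn f (S : Set ι)) :
    condOn P S f = f := by
  funext x
  unfold condOn
  have : (fun y => f (S.piecewise x y)) = fun _ => f x := by
    funext y
    exact hf fun i hi => by simp [Finset.mem_coe.1 hi]
  rw [this]; simp

omit [DecidableEq ι] in
theorem integrable_of_bdd {f : (∀ i, X i) → ℝ} (hf : Measurable f) {C : ℝ}
    (hC : ∀ x, |f x| ≤ C) : Integrable f (Measure.infinitePi P) :=
  Integrable.of_bound hf.aestronglyMeasurable C (Filter.Eventually.of_forall hC)

/-- Tower property: integrating against functions of coordinates in `T`. -/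
theorem integral_condOn_mul (T : Finset ι) {f φ : (∀ i, X i) → ℝ} (hf : Measurable f)
    (hφ : Measurable φ) {C D : ℝ} (hC : ∀ x, |f x| ≤ C) (hD : ∀ x, |φ x| ≤ D)
    (hφT : DependsOn φ (T : Set ι)) :
    ∫ x, condOn P T f x * φ x ∂(Measure.infinitePi P)
      = ∫ x, f x * φ x ∂(Measure.infinitePi P) := by
  have hmp := measurePreserving_piecewise P T
  have hm : Measurable fun x => f x * φ x := hf.mul hφ
  have h1 : ∫ x, f x * φ x ∂(Measure.infinitePi P)
      = ∫ p : (∀ i, X i) × (∀ i, X i), f (T.piecewise p.1 p.2) * φ (T.piecewise p.1 p.2)
        ∂((Measure.infinitePi P).prod (Measure.infinitePi P)) := by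
    conv_lhs => rw [← hmp.map_eq]
    rw [integral_map hmp.measurable.aemeasurable hm.aestronglyMeasurable]
  rw [h1, integral_prod]
  · refine integral_congr_ae (Filter.Eventually.of_forall fun x => ?_)
    have : ∀ y, f (T.piecewise x y) * φ (T.piecewise x y) = f (T.piecewise x y) * φ x := by
      intro y
      have : φ (T.piecewise x y) = φ x := hφT fun i hi => by simp [Finset.mem_coe.1 hi]
      rw [this]
    simp only [this, integral_mul_const]
    rfl
  · refine Integrable.of_bound (C := C * D) ?_ (Filter.Eventually.of_forall fun p => ?_)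
    · exact (hm.comp (measurable_piecewise_uncurry T)).aestronglyMeasurable
    · simp only [norm_mul, Real.norm_eq_abs]
      exact mul_le_mul (hC _) (hD _) (abs_nonneg _) ((abs_nonneg _).trans (hC p.1))

/-- Resampling one more coordinate. -/
theorem condOn_eq_integral_update (S : Finset ι) {i : ι} (hi : i ∉ S) {f : (∀ i, X i) → ℝ}
    (hf : Measurable f) {C : ℝ} (hC : ∀ x, |f x| ≤ C) (x : ∀ i, X i) :
    condOn P S f x
      = ∫ y, condOn P (insert i S) f (Function.update x i (y i)) ∂(Measure.infinitePi P) := by
  have hmp := measurePreserving_piecewise P ({i} : Finset ι)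
  have hmx : Measurable fun y : (∀ i, X i) => S.piecewise x y :=
    (measurable_piecewise_uncurry S).comp (measurable_const.prodMk measurable_id)
  have hm : Measurable fun y => f (S.piecewise x y) := hf.comp hmx
  have h1 : condOn P S f x
      = ∫ p : (∀ i, X i) × (∀ i, X i), f (S.piecewise x (({i} : Finset ι).piecewise p.1 p.2))
        ∂((Measure.infinitePi P).prod (Measure.infinitePi P)) := by
    unfold condOn
    conv_lhs => rw [← hmp.map_eq]
    rw [integral_map hmp.measurable.aemeasurable hm.aestronglyMeasurable]
  rw [h1, integral_prod]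
  · refine integral_congr_ae (Filter.Eventually.of_forall fun y => ?_)
    unfold condOn
    refine integral_congr_ae (Filter.Eventually.of_forall fun z => ?_)
    simp only
    congr 1
    funext j
    by_cases hji : j = i
    · subst hji; simp [hi]
    · by_cases hj : j ∈ S
      · simp [hj, hji]
      · simp [hj, hji]
  · refine Integrable.of_bound (C := C) ?_ (Filter.Eventually.of_forall fun p => hC _)
    exact (hm.comp (measurable_piecewise_uncurry ({i} : Finset ι))).aestronglyMeasurable

/-- Conditioning preserves a one-coordinate oscillation bound. -/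
theorem condOn_osc (S : Finset ι) {i : ι} {f : (∀ i, X i) → ℝ} (hf : Measurable f)
    {C : ℝ} (hC : ∀ x, |f x| ≤ C) {c : ℝ}
    (hc : ∀ x (t : X i), |f x - f (Function.update x i t)| ≤ c) (x : ∀ i, X i) (t : X i) :
    |condOn P S f x - condOn P S f (Function.update x i t)| ≤ c := by
  have hmx : ∀ x, Measurable fun y : (∀ i, X i) => f (S.piecewise x y) := fun x =>
    hf.comp ((measurable_piecewise_uncurry S).comp (measurable_const.prodMk measurable_id))
  have hint : ∀ x, Integrable (fun y : (∀ i, X i) => f (S.piecewise x y))
      (Measure.infinitePi P) := fun x => integrable_of_bdd P (hmx x) fun y => hC _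
  unfold condOn
  rw [← integral_sub (hint _) (hint _)]
  have h := norm_integral_le_of_norm_le_const (μ := Measure.infinitePi P)
    (f := fun y => f (S.piecewise x y) - f (S.piecewise (Function.update x i t) y)) (C := c)
    (Filter.Eventually.of_forall fun y => ?_)
  · simpa using h
  · by_cases hi : i ∈ S
    · have : S.piecewise (Function.update x i t) y = Function.update (S.piecewise x y) i t := by
        funext j
        by_cases hji : j = i
        · subst hji; simp [hi]
        · by_cases hj : j ∈ S <;> simp [hj, hji]
      rw [this]
      exact hc _ _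
    · have : S.piecewise (Function.update x i t) y = S.piecewise x y := by
        funext j
        by_cases hji : j = i
        · subst hji; simp [hi]
        · by_cases hj : j ∈ S <;> simp [hj, hji]
      rw [this]
      have h0 := (abs_nonneg _).trans (hc x t)
      simpa using h0

/-- **Efron-Stein (sup version).**  If `f` is bounded, measurable, depends only on the
coordinates in the finset `F` and has oscillation at most `c i` in coordinate `i`, then its
`L²` distance to its conditional expectation given the coordinates in `S` is at most
`∑ i ∈ F \ S, c i ^ 2`. -/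
theorem efronStein (F : Finset ι) {f : (∀ i, X i) → ℝ} (hf : Measurable f)
    {C : ℝ} (hC : ∀ x, |f x| ≤ C) (hF : DependsOn f (F : Set ι)) (c : ι → ℝ)
    (hc : ∀ i, ∀ x (t : X i), |f x - f (Function.update x i t)| ≤ c i) (S : Finset ι) :
    ∫ x, (f x - condOn P S f x) ^ 2 ∂(Measure.infinitePi P) ≤ ∑ i ∈ F \ S, c i ^ 2 := by
  generalize hn : (F \ S).card = n
  induction n generalizing S with
  | zero =>
    have hFS : F ⊆ S := by
      rw [Finset.card_eq_zero, Finset.sdiff_eq_empty_iff_subset] at hn
      exact hn
    have : condOn P S f = f := condOn_of_dependsOn P S (hF.mono (by exact_mod_cast hFS))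
    rw [this]
    simp only [sub_self, ne_eq, OfNat.ofNat_ne_zero, not_false_eq_true, zero_pow,
      integral_zero]
    exact Finset.sum_nonneg fun i _ => sq_nonneg _
  | succ n ih =>
    obtain ⟨i, hi⟩ : (F \ S).Nonempty := by
      rw [← Finset.card_pos, hn]; omega
    have hiF : i ∈ F := (Finset.mem_sdiff.1 hi).1
    have hiS : i ∉ S := (Finset.mem_sdiff.1 hi).2
    have hsd : F \ insert i S = (F \ S).erase i := by
      ext j; simp only [Finset.mem_sdiff, Finset.mem_insert, Finset.mem_erase]; tauto
    have hcard : (F \ insert i S).card = n := by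
      rw [hsd, Finset.card_erase_of_mem hi, hn]; omega
    have IH := ih (insert i S) hcard
    have hsum : ∑ j ∈ F \ S, c j ^ 2 = c i ^ 2 + ∑ j ∈ F \ insert i S, c j ^ 2 := by
      rw [hsd, Finset.add_sum_erase _ (fun j => c j ^ 2) hi]
    set T := insert i S with hT
    have hmT := measurable_condOn P T hf
    have hmS := measurable_condOn P S hf
    have hbT := abs_condOn_le P T hC
    have hbS := abs_condOn_le P S hC
    have hdT : DependsOn (condOn P T f) (T : Set ι) := dependsOn_condOn P T f
    have hdS : DependsOn (condOn P S f) (T : Set ι) :=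
      (dependsOn_condOn P S f).mono (by rw [hT]; exact_mod_cast Finset.subset_insert i S)
    have hstep : ∀ x, |condOn P T f x - condOn P S f x| ≤ c i := by
      intro x
      rw [condOn_eq_integral_update P S hiS hf hC x]
      have hmu : Measurable fun y : (∀ i, X i) => condOn P T f (Function.update x i (y i)) := by
        refine hmT.comp ?_
        exact (measurable_update x).comp (measurable_pi_apply i)
      have hint : Integrable (fun y : (∀ i, X i) => condOn P T f (Function.update x i (y i)))
          (Measure.infinitePi P) := integrable_of_bdd P hmu fun y => hbT _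
      have h2 : condOn P T f x = ∫ _y, condOn P T f x ∂(Measure.infinitePi P) := by simp
      conv_lhs => rw [h2]
      rw [← integral_sub (integrable_const _) hint]
      have h := norm_integral_le_of_norm_le_const (μ := Measure.infinitePi P)
        (f := fun y => condOn P T f x - condOn P T f (Function.update x i (y i))) (C := c i)
        (Filter.Eventually.of_forall fun y => condOn_osc P T hf hC (hc i) x (y i))
      simpa using h
    -- Pythagoras
    have hφm : Measurable fun x => condOn P T f x - condOn P S f x := hmT.sub hmS
    have hφd : DependsOn (fun x => condOn P T f x - condOn P S f x) (T : Set ι) := by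
      intro x y hxy
      simp only [hdT hxy, hdS hxy]
    have hφb : ∀ x, |condOn P T f x - condOn P S f x| ≤ c i := hstep
    have horth : ∫ x, (f x - condOn P T f x) * (condOn P T f x - condOn P S f x)
        ∂(Measure.infinitePi P) = 0 := by
      have h1 := integral_condOn_mul P T hf hφm hC hφb hφd
      have hi1 : Integrable (fun x => f x * (condOn P T f x - condOn P S f x))
          (Measure.infinitePi P) := by
        refine integrable_of_bdd P (hf.mul hφm) (C := C * c i) fun x => ?_
        rw [abs_mul]
        exact mul_le_mul (hC _) (hφb _) (abs_nonneg _) ((abs_nonneg _).trans (hC x))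
      have hi2 : Integrable (fun x => condOn P T f x * (condOn P T f x - condOn P S f x))
          (Measure.infinitePi P) := by
        refine integrable_of_bdd P (hmT.mul hφm) (C := C * c i) fun x => ?_
        rw [abs_mul]
        exact mul_le_mul (hbT _) (hφb _) (abs_nonneg _) ((abs_nonneg _).trans (hbT x))
      simp only [sub_mul]
      rw [integral_sub hi1 hi2, h1, sub_self]
    have hbd : ∀ {u : (∀ i, X i) → ℝ} {M : ℝ}, Measurable u → (∀ x, |u x| ≤ M) →
        Integrable (fun x => (u x) ^ 2) (Measure.infinitePi P) := by
      intro u M hu hM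
      refine integrable_of_bdd P (hu.pow_const 2) (C := M ^ 2) fun x => ?_
      rw [abs_pow]
      exact pow_le_pow_left₀ (abs_nonneg _) (hM x) 2
    have hsplit : ∀ x, (f x - condOn P S f x) ^ 2 = (f x - condOn P T f x) ^ 2
        + (condOn P T f x - condOn P S f x) ^ 2
        + 2 * ((f x - condOn P T f x) * (condOn P T f x - condOn P S f x)) := by
      intro x; ring
    have hb1 : ∀ x, |f x - condOn P T f x| ≤ C + C := fun x =>
      (abs_sub _ _).trans (add_le_add (hC x) (hbT x))
    have hI1 : Integrable (fun x => (f x - condOn P T f x) ^ 2) (Measure.infinitePi P) :=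
      hbd (hf.sub hmT) hb1
    have hI2 : Integrable (fun x => (condOn P T f x - condOn P S f x) ^ 2)
        (Measure.infinitePi P) := hbd hφm hφb
    have hI3 : Integrable (fun x => (f x - condOn P T f x) *
        (condOn P T f x - condOn P S f x)) (Measure.infinitePi P) := by
      refine integrable_of_bdd P ((hf.sub hmT).mul hφm) (C := (C + C) * c i) fun x => ?_
      rw [abs_mul]
      exact mul_le_mul (hb1 _) (hφb _) (abs_nonneg _) ((abs_nonneg _).trans (hb1 x))
    have key : ∫ x, (f x - condOn P S f x) ^ 2 ∂(Measure.infinitePi P)
        = ∫ x, (f x - condOn P T f x) ^ 2 ∂(Measure.infinitePi P)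
          + ∫ x, (condOn P T f x - condOn P S f x) ^ 2 ∂(Measure.infinitePi P) := by
      simp only [hsplit]
      have e1 := integral_add (μ := Measure.infinitePi P)
        (f := fun x => (f x - condOn P T f x) ^ 2 + (condOn P T f x - condOn P S f x) ^ 2)
        (g := fun x => 2 * ((f x - condOn P T f x) * (condOn P T f x - condOn P S f x)))
        (hI1.add hI2) (hI3.const_mul 2)
      rw [e1, integral_add hI1 hI2, integral_const_mul, horth, mul_zero, add_zero]
    rw [key, hsum, add_comm (c i ^ 2)]
    refine add_le_add IH ?_
    calc ∫ x, (condOn P T f x - condOn P S f x) ^ 2 ∂(Measure.infinitePi P)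
        ≤ ∫ _x, c i ^ 2 ∂(Measure.infinitePi P) := by
          refine integral_mono hI2 (integrable_const _) fun x => ?_
          exact sq_le_sq' (abs_le.1 (hφb x)).1 (abs_le.1 (hφb x)).2
      _ = c i ^ 2 := by simp

end EfronStein

end Vale.Agent.Common.EfronStein
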